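import Mathlib
import Vale.Agent.P100.Weighted.Main
import Vale.Agent.P100.Weighted.Cases

/-!
# The Hénon–Lane–Emden conjecture below the unweighted hyperbola, in every dimension
-/

open Laplacian

namespace Vale.Agent.Results.P100.HenonLaneEmden

open Vale.Agent.P100

/-- No positive entire solution of `-Δu = |x|^w₁ v^p`, `-Δv = |x|^w₂ u^q` if `p q ≤ 1`, a weight is
`≤ -2`, or the parameters are subcritical and: `n ≤ 3`, or `max (α, β) > n - 3`, or the weights are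
nonpositive, or the exponents are subcritical without weights, or both scaling exponents exceed
`(n - 2) / 2`. -/
theorem result : ∀ (n : ℕ) (w₁ w₂ p q : ℝ), 2 ≤ n → 0 < p → 0 < q →
    (p * q ≤ 1 ∨ w₁ ≤ -2 ∨ w₂ ≤ -2 ∨
      ((n : ℝ) - 2 < ((n : ℝ) + w₁) / (p + 1) + ((n : ℝ) + w₂) / (q + 1) ∧
        ((w₁ ≤ 0 ∧ w₂ ≤ 0) ∨ ((n : ℝ) - 2) / n < 1 / (p + 1) + 1 / (q + 1) ∨ n ≤ 3 ∨
          (n : ℝ) - 3 < max (2 * (p + 1) / (p * q - 1)) (2 * (q + 1) / (p * q - 1)) ∨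
          (((n : ℝ) - 2) / 2 < (2 * (p + 1) + w₁ + p * w₂) / (p * q - 1) ∧
            ((n : ℝ) - 2) / 2 < (2 * (q + 1) + w₂ + q * w₁) / (p * q - 1))))) →
    ¬ ∃ u v : EuclideanSpace ℝ (Fin n) → ℝ,
      Continuous u ∧ Continuous v ∧ ContDiffOn ℝ 2 u {0}ᶜ ∧ ContDiffOn ℝ 2 v {0}ᶜ ∧
      (∀ x, 0 < u x) ∧ (∀ x, 0 < v x) ∧ (∀ x, x ≠ 0 → Δ u x = -(‖x‖ ^ w₁ * v x ^ p)) ∧
      (∀ x, x ≠ 0 → Δ v x = -(‖x‖ ^ w₂ * u x ^ q)) := by
  intro n w₁ w₂ p q hn hp hq h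
  refine Weighted.no_solution_cases hn hp hq ?_
  rcases h with h | h | h | ⟨hsub, h⟩
  · exact Or.inl h
  · exact Or.inr (Or.inl h)
  · exact Or.inr (Or.inr (Or.inl h))
  refine Or.inr (Or.inr (Or.inr ⟨hsub, ?_⟩))
  rcases (by omega : n ≤ 3 ∨ 3 ≤ n) with h3 | h3
  · exact Or.inl h3
  rcases h with h | h | h | h | h
  · exact Or.inr (Or.inr (Or.inr ⟨h3, Weighted.lane_emden h3 hp hq
      (Weighted.lane_sub_of_nonpos (by omega) h.1 h.2 hp hq hsub)⟩))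
  · exact Or.inr (Or.inr (Or.inr ⟨h3, Weighted.lane_emden h3 hp hq h⟩))
  · exact Or.inl h
  · exact Or.inr (Or.inl h)
  · exact Or.inr (Or.inr (Or.inl h))

end Vale.Agent.Results.P100.HenonLaneEmden
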