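import Mathlib
import Vale.Agent.P100.Calib.ConeFinalLarge
import Vale.Agent.P100.Calib.SlabStripEndSignsI
import Vale.Agent.P100.Calib.SlabStripEndCertsC
import Vale.Agent.P100.Calib.SlabStripEndSignsD

/-!
# The Hénon–Lane–Emden system with a common weight for `ν ≥ 20`
-/

open Laplacian

namespace Vale.Agent.Results.P100.LargeDimensions

/-- For `w ≤ 0` and `9 w ≤ n - 20` (so `ν = 2 (n + w) / (2 + w) ≥ 20` when `w > -2`) there is no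
positive entire solution of `-Δu = |x|^w v^p`, `-Δv = |x|^w u^q` for subcritical `p, q > 0`. -/
theorem result : ∀ (n : ℕ), 3 ≤ n → ∀ w p q : ℝ, w ≤ 0 → 9 * w ≤ (n : ℝ) - 20 → 0 < p → 0 < q →
    (n : ℝ) - 2 < ((n : ℝ) + w) / (p + 1) + ((n : ℝ) + w) / (q + 1) →
    ¬ ∃ u v : EuclideanSpace ℝ (Fin n) → ℝ,
      Continuous u ∧ Continuous v ∧ ContDiffOn ℝ 2 u {0}ᶜ ∧ ContDiffOn ℝ 2 v {0}ᶜ ∧
      (∀ x, 0 < u x) ∧ (∀ x, 0 < v x) ∧ (∀ x, x ≠ 0 → Δ u x = -(‖x‖ ^ w * v x ^ p)) ∧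
      (∀ x, x ≠ 0 → Δ v x = -(‖x‖ ^ w * u x ^ q)) :=
  fun _ hn _ _ _ hw hdim hp hq hsub =>
    Vale.Agent.P100.Calib.Band.henon_lane_emden_large_of_certs (Vale.Agent.P100.Calib.StripEnd.certsIZ 20)
      (Vale.Agent.P100.Calib.StripEnd.certsC 20) (Vale.Agent.P100.Calib.StripEnd.certsD 20)
      hn hw hdim hp hq hsub

end Vale.Agent.Results.P100.LargeDimensions
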