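import Mathlib
import Vale.Agent.P100.Calib.ConeMainLow

/-!
# The Hénon–Lane–Emden system with a common weight for `7 ≤ ν ≤ 159/8`, one exponent at least `69/31`
-/

open Laplacian

namespace Vale.Agent.Results.P100.MidDimensions

/-- For `w ≤ 0`, `5 w ≤ 2 n - 14` and `16 n - 318 ≤ 143 w` (so `7 ≤ ν = 2 (n + w) / (2 + w) ≤ 159/8`
when `w > -2`) there is no positive entire solution of `-Δu = |x|^w v^p`, `-Δv = |x|^w u^q` for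
subcritical `p, q > 0` with `min (1/(p+1)) (1/(q+1)) ≤ 31/100`. -/
theorem result : ∀ (n : ℕ), 3 ≤ n → ∀ w p q : ℝ, w ≤ 0 → 5 * w ≤ 2 * (n : ℝ) - 14 →
    16 * (n : ℝ) - 318 ≤ 143 * w → 0 < p → 0 < q →
    min (1 / (p + 1)) (1 / (q + 1)) ≤ (31 : ℝ) / 100 →
    (n : ℝ) - 2 < ((n : ℝ) + w) / (p + 1) + ((n : ℝ) + w) / (q + 1) →
    ¬ ∃ u v : EuclideanSpace ℝ (Fin n) → ℝ,
      Continuous u ∧ Continuous v ∧ ContDiffOn ℝ 2 u {0}ᶜ ∧ ContDiffOn ℝ 2 v {0}ᶜ ∧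
      (∀ x, 0 < u x) ∧ (∀ x, 0 < v x) ∧ (∀ x, x ≠ 0 → Δ u x = -(‖x‖ ^ w * v x ^ p)) ∧
      (∀ x, x ≠ 0 → Δ v x = -(‖x‖ ^ w * u x ^ q)) :=
  fun _ hn _ _ _ hw hlo hhi hp hq ha hsub =>
    Vale.Agent.P100.Calib.Band.henon_lane_emden_low_below hn hw hlo hhi hp hq ha hsub

end Vale.Agent.Results.P100.MidDimensions
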