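import Mathlib
import Vale.Agent.P100.AssemblyG
import Vale.Agent.P100.RealDim.Range
import Vale.Agent.P100.RealDim.Curve
import Vale.Agent.P100.RealDim.EighthNear
import Vale.Agent.P100.RealDim.LayerEighth
import Vale.Agent.P100.UnequalRange
import Vale.Agent.P100.SoupletAB.Cases
import Vale.Agent.P100.Calib.SlabFiveMain
import Vale.Agent.P100.Calib.SlabSixMain

/-!
# The Hénon–Lane–Emden conjecture with weights, and the Lane–Emden conjecture for `n = 5, 6`
-/

open Laplacian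

namespace Vale.Agent.Results.P100.WeightedRanges

/-- No positive entire solution of `-Δu = |x|^w₁ v^p`, `-Δv = |x|^w₂ u^q`: for any real weights if
`p q ≤ 1`, a weight is `≤ -2`, or `(p, q)` is subcritical and `n ≤ 3`, or `n = 4` and the weights
are nonpositive, or `max (α, β) > n - 3`; or `n` is 5 or 6 and both weights vanish; for `n ≥ 5` and
`w₁, w₂ ≤ 0` also outside a thin layer, computed at the smaller weight. -/
theorem result : ∀ (n : ℕ) (w₁ w₂ p q : ℝ), 2 ≤ n → 0 < p → 0 < q →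
    ∀ w N α β : ℝ, w = min w₁ w₂ → N = 2 * ((n : ℝ) + w) / (2 + w) →
    α = 2 * (p + 1) / (p * q - 1) → β = 2 * (q + 1) / (p * q - 1) →
    (p * q ≤ 1 ∨ w ≤ -2 ∨
      ((n : ℝ) - 2 < ((n : ℝ) + w₁) / (p + 1) + ((n : ℝ) + w₂) / (q + 1) ∧
        (n ≤ 3 ∨ (n = 4 ∧ w₁ ≤ 0 ∧ w₂ ≤ 0) ∨ (n : ℝ) - 3 < max α β ∨
          ((n = 5 ∨ n = 6) ∧ w₁ = 0 ∧ w₂ = 0))) ∨
      (5 ≤ n ∧ w₁ ≤ 0 ∧ w₂ ≤ 0 ∧
        ((N - 2 < α + β ∧ max α β < (N - 3) * min α β ∧
            2 * min α β ^ 2 * (α - β) ^ 2 / (α + β) ^ 3 ≤ α + β - (N - 2) ∧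
            (w₁ = w₂ ∨ n * |w₁ - w₂| * (1 + 5 * (α - β) ^ 2 / (16 * α * β)) <
              2 * (-w) * ((n : ℝ) - 2))) ∨
          (w₁ = w₂ ∧ ((N - 2) * (1 + 1 / (2 * √(N + 10))) ≤ α + β ∨
            (N - 2) / N + max p q / (2 * N * (N + 8)) ≤ 1 / (p + 1) + 1 / (q + 1) ∨
            (max α β ≤ N - 3 ∧ N - 2 + 1 / 8 ≤ α + β)))))) →
    ¬ ∃ u v : EuclideanSpace ℝ (Fin n) → ℝ,
      Continuous u ∧ Continuous v ∧ ContDiffOn ℝ 2 u {0}ᶜ ∧ ContDiffOn ℝ 2 v {0}ᶜ ∧
      (∀ x, 0 < u x) ∧ (∀ x, 0 < v x) ∧ (∀ x, x ≠ 0 → Δ u x = -(‖x‖ ^ w₁ * v x ^ p)) ∧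
      (∀ x, x ≠ 0 → Δ v x = -(‖x‖ ^ w₂ * u x ^ q)) := by
  intro n w₁ w₂ p q hn2 hp hq w N α β hw hN hα hβ h
  subst hN
  rcases h with h | h | ⟨h1, h2⟩ | ⟨hn, hw₁, hw₂, h | ⟨rfl, h⟩⟩
  · rintro ⟨u, v, huc, hvc, hu, hv, hup, hvp, equ, eqv⟩
    exact Vale.Agent.P100.SoupletAB.no_solution_trivial_weights hn2 hp hq (Or.inl h) huc hvc hu hv
      hup hvp equ eqv
  · rintro ⟨u, v, huc, hvc, hu, hv, hup, hvp, equ, eqv⟩
    exact Vale.Agent.P100.SoupletAB.no_solution_trivial_weights hn2 hp hq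
      (Or.inr (min_le_iff.1 (hw ▸ h))) huc hvc hu hv hup hvp equ eqv
  · subst hα hβ
    rcases h2 with h2 | h2 | h2 | ⟨rfl | rfl, rfl, rfl⟩
    · exact Vale.Agent.P100.SoupletAB.no_solution_weights hn2 hp hq h1 (by tauto)
    · exact Vale.Agent.P100.SoupletAB.no_solution_weights hn2 hp hq h1 (by tauto)
    · exact Vale.Agent.P100.SoupletAB.no_solution_weights hn2 hp hq h1 (by tauto)
    · have hsub : (3 : ℝ) / 5 < 1 / (p + 1) + 1 / (q + 1) := by
        push_cast at h1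
        have e : (5 + (0 : ℝ)) / (p + 1) + (5 + 0) / (q + 1) = 5 * (1 / (p + 1) + 1 / (q + 1)) := by ring
        linarith
      rintro ⟨u, v, huc, hvc, hu, hv, hup, hvp, equ, eqv⟩
      exact Vale.Agent.P100.Calib.lane_emden_five_all hp hq hsub
        ⟨u, v, huc, hvc, hu, hv, hup, hvp, fun x hx => by simpa using equ x hx,
          fun x hx => by simpa using eqv x hx⟩
    · have hsub : (2 : ℝ) / 3 < 1 / (p + 1) + 1 / (q + 1) := by
        push_cast at h1
        have e : (6 + (0 : ℝ)) / (p + 1) + (6 + 0) / (q + 1) = 6 * (1 / (p + 1) + 1 / (q + 1)) := by ring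
        linarith
      rintro ⟨u, v, huc, hvc, hu, hv, hup, hvp, equ, eqv⟩
      exact Vale.Agent.P100.Calib.lane_emden_six_all hp hq hsub
        ⟨u, v, huc, hvc, hu, hv, hup, hvp, fun x hx => by simpa using equ x hx,
          fun x hx => by simpa using eqv x hx⟩
  · exact Vale.Agent.P100.RealDim.no_solution_unequal hn hw₁ hw₂ hp hq hw hα hβ
      (Or.inr (Or.inr h))
  rw [min_self] at hw
  subst hw hα hβ
  rw [← Vale.Agent.P100.coneDim] at h
  refine Vale.Agent.P100.no_entire_solutionG_of_params hn hw₁ (S := fun p q =>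
    (Vale.Agent.P100.coneDim n w - 2) * (1 + 1 / (2 * √(Vale.Agent.P100.coneDim n w + 10))) ≤
        2 * (p + 1) / (p * q - 1) + 2 * (q + 1) / (p * q - 1) ∨
      (Vale.Agent.P100.coneDim n w - 2) / Vale.Agent.P100.coneDim n w + max p q /
          (2 * Vale.Agent.P100.coneDim n w * (Vale.Agent.P100.coneDim n w + 8)) ≤
        1 / (p + 1) + 1 / (q + 1) ∨
      (max (2 * (p + 1) / (p * q - 1)) (2 * (q + 1) / (p * q - 1)) ≤
          Vale.Agent.P100.coneDim n w - 3 ∧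
        Vale.Agent.P100.coneDim n w - 2 + 1 / 8 ≤
          2 * (p + 1) / (p * q - 1) + 2 * (q + 1) / (p * q - 1))) ?_ ?_ hp hq h
  · intro p q hpq
    rw [mul_comm q p, max_comm q p, max_comm (2 * (q + 1) / (p * q - 1)),
      add_comm (2 * (q + 1) / (p * q - 1)), add_comm (1 / (q + 1))]
    exact hpq
  · intro hw p q hq hqp hpq hser h
    have hN : 5 ≤ Vale.Agent.P100.coneDim n w := (show (5 : ℝ) ≤ n by exact_mod_cast hn).trans
      (Vale.Agent.P100.natCast_le_coneDim (by omega) hw hw₁)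
    have hd : 0 < p * q - 1 := by linarith
    rw [max_eq_left hqp] at h
    rcases h with h | h | ⟨h2, h3⟩
    · exact Vale.Agent.P100.RealDim.hasParamsN_layer hN hq hqp hpq hser (Or.inl h)
    · refine Vale.Agent.P100.RealDim.hasParamsN_of_hasParamsR hpq ?_
        (Vale.Agent.P100.RealDim.hasParamsR_of_gap (by linarith) hq hqp h)
      have hp : 0 < p := hq.trans_le hqp
      have h' : (Vale.Agent.P100.coneDim n w - 2) / Vale.Agent.P100.coneDim n w <
          1 / (p + 1) + 1 / (q + 1) := lt_of_lt_of_le (lt_add_of_pos_right _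
            (div_pos hp (mul_pos (mul_pos two_pos (by linarith)) (by linarith)))) h
      rw [div_add_div _ _ (by linarith) (by linarith),
        div_lt_div_iff₀ (by linarith) (by positivity)] at h'
      rw [← add_div, lt_div_iff₀ hd]
      linarith
    · rcases le_total (20 * (Vale.Agent.P100.coneDim n w + 2))
          (9 * (Vale.Agent.P100.coneDim n w - 2) * p) with h1 | h1
      · exact Vale.Agent.P100.RealDim.hasParamsN_eighth hN hq hpq h1
          ((le_max_left _ _).trans h2) h3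
      · exact Vale.Agent.P100.RealDim.hasParamsN_eighth_near hN hq hqp hpq h1
          ((le_max_left _ _).trans h2) h3

end Vale.Agent.Results.P100.WeightedRanges
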